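import Vale.Agent.P057EN.Sem
import Vale.Agent.P057ST.Cos
import Vale.Agent.P057S1.Tel

/-!
Summation over a fibre with truncation; telescoping for real numbers.
-/

set_option linter.all false

open Matrix Finset
open Vale.Agent.P267.H775 Vale.Agent.P057G Vale.Agent.P057PC Vale.Agent.P057EN
open Vale.Agent.P057ST (Er Ex_er summable_er er_le er_nonneg)

namespace Vale.Agent.P057TL

noncomputable section

theorem tel_real {X : Type} [DecidableEq X] (s : Finset X) (hs : s.Nonempty) (E : Finset X → ℝ)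
    (hE : ∀ t, 0 ≤ E t) {l r δ : ℝ} (hl : 0 ≤ l) (hr0 : 0 ≤ r) (hδ : 0 ≤ δ) (hr : r + 2 * δ ≤ 1)
    (h0 : E ∅ ≤ 1 + δ) (h : l ^ s.card ≤ E s) :
    ∃ t ⊆ s, ∃ e ∈ s, e ∉ t ∧ δ * l ^ (t.card + 1) + r * l * E t ≤ E (insert e t) := by
  obtain ⟨t, h1, e, h2, h3, h4⟩ := P057S1.tel s hs (fun t => ENNReal.ofReal (E t))
    (l := ENNReal.ofReal l) (r := ENNReal.ofReal r) (δ := ENNReal.ofReal δ)
    (by
      rw [← ENNReal.ofReal_ofNat, ← ENNReal.ofReal_mul (by norm_num),
        ← ENNReal.ofReal_add hr0 (by positivity), ← ENNReal.ofReal_one]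
      exact ENNReal.ofReal_le_ofReal hr)
    (by
      rw [← ENNReal.ofReal_one, ← ENNReal.ofReal_add zero_le_one hδ]
      exact ENNReal.ofReal_le_ofReal h0)
    (by rw [← ENNReal.ofReal_pow hl]; exact ENNReal.ofReal_le_ofReal h)
  refine ⟨t, h1, e, h2, h3, ?_⟩
  have := hE t
  rwa [← ENNReal.ofReal_pow hl, ← ENNReal.ofReal_mul hδ, ← ENNReal.ofReal_mul hr0,
    ← ENNReal.ofReal_mul (by positivity), ← ENNReal.ofReal_add (by positivity) (by positivity),
    ENNReal.ofReal_le_ofReal_iff (hE _)] at h4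

variable {L : Type} [Fintype L] [DecidableEq L] {lv : L → ℕ} {p : (L → ℤ) → L → ℝ}
  {G : Matrix L L ℝ} {P : L → Prop} [DecidablePred P]
  {pb : ({l // ¬ P l} → ℤ) → {l // ¬ P l} → ℝ}

/-- the sum of a real function over one fibre -/
def Fr (G : Matrix L L ℝ) (P : L → Prop) [DecidablePred P] (p : (L → ℤ) → L → ℝ)
    (H : (L → ℤ) → ℝ) (y : {l // ¬ P l} → ℤ) : ℝ :=
  Er (bk G P) (pf P p y) fun x => H (glue P x y)

theorem er_split (hp : Tri lv p) (hG : G.PosDef) (ho : Ort G P) (hs : Spl P p pb)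
    {H : (L → ℤ) → ℝ} {K : ({l // ¬ P l} → ℤ) → ℝ} {B D : ℝ} (hH : ∀ z, |H z| ≤ B)
    (hK : ∀ y, |K y| ≤ D) :
    Er G p (fun z => H z * K (rs _ z)) =
      Er (bk G fun l => ¬ P l) pb fun y => Fr G P p H y * K y := by
  have h := Ex_split hp hG ho hs (f := fun z => (H z : ℂ) * (K (rs _ z) : ℂ)) (C := B * D)
    fun z => by
      rw [norm_mul, Complex.norm_real, Complex.norm_real]
      exact mul_le_mul (hH z) (hK _) (norm_nonneg _) ((abs_nonneg _).trans (hH z))
  rw [funext (Fx_base G (fun z => (H z : ℂ)) fun y => (K y : ℂ))] at h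
  have e : ∀ y, Fx G P p (fun z => (H z : ℂ)) y = (Fr G P p H y : ℝ) := fun y => Ex_er _ _ _
  simp only [e, ← Complex.ofReal_mul, Ex_er] at h
  exact_mod_cast h

/-- the fibre sums may be truncated -/
theorem trunc (hp : Tri lv p) (hG : G.PosDef) (ho : Ort G P) (hs : Spl P p pb) {η : ℝ}
    (h0 : |ms (bk G fun l => ¬ P l) pb - 1| ≤ η) (h1 : |ms G p - 1| ≤ η)
    (h2 : |ms (fromBlocks G 0 0 (bk G P)) (pc P p p) - 1| ≤ η)
    {H : (L → ℤ) → ℝ} {K : ({l // ¬ P l} → ℤ) → ℝ} {B D : ℝ} (hH : ∀ z, 0 ≤ H z ∧ H z ≤ B)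
    (hK : ∀ y, |K y| ≤ D) :
    Er G p (fun z => H z * K (rs _ z)) - 4 * η * (B * D) ≤
      Er (bk G fun l => ¬ P l) pb fun y => min (Fr G P p H y) (2 * B) * K y := by
  have hB : 0 ≤ B := (hH 0).1.trans (hH 0).2
  have hD : 0 ≤ D := (abs_nonneg _).trans (hK 0)
  have hH' : ∀ z, |H z| ≤ B := fun z => by rw [abs_of_nonneg (hH z).1]; exact (hH z).2
  obtain ⟨M, hM⟩ := ms_bdd (posDef_bk hG P)
  have f0 : ∀ y, 0 ≤ Fr G P p H y := fun y => er_nonneg _ _ fun _ => (hH _).1
  have f1 : ∀ y, Fr G P p H y ≤ B * ms (bk G P) (pf P p y) := fun y =>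
    er_le (tri_pf hp P y) (posDef_bk hG P) fun _ => hH' _
  have v := fib_var hp hG ho hs
  have s1 := summable_er (hs.tri hp) (posDef_bk hG fun l => ¬ P l)
    (f := fun y => Fr G P p H y * K y) (C := B * M * D) fun y => by
      rw [abs_mul, abs_of_nonneg (f0 y)]
      have := (f1 y).trans (mul_le_mul_of_nonneg_left (hM _ _ (tri_pf hp P y)) hB)
      exact mul_le_mul this (hK y) (abs_nonneg _) ((f0 y).trans this)
  have s2 := summable_er (hs.tri hp) (posDef_bk hG fun l => ¬ P l)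
    (f := fun y => min (Fr G P p H y) (2 * B) * K y) (C := 2 * B * D) fun y => by
      rw [abs_mul, abs_of_nonneg (le_min (f0 y) (by linarith))]
      exact mul_le_mul (min_le_right _ _) (hK y) (abs_nonneg _) (by linarith)
  rw [er_split hp hG ho hs hH' hK, sub_le_iff_le_add]
  have h3 := hasSum_le (fun y => ?_) s1.hasSum (s2.hasSum.add (v.mul_left (B * D)))
  · refine h3.trans (add_le_add le_rfl ?_)
    rw [mul_comm (4 * η)]
    rw [abs_le] at h0 h1 h2
    exact mul_le_mul_of_nonneg_left (by linarith) (by positivity)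
  · rw [mul_left_comm (B * D), ← mul_add]
    refine mul_le_mul_of_nonneg_left ?_ (ng_nonneg _ _)
    have h4 : Fr G P p H y - min (Fr G P p H y) (2 * B) ≤
        B * (ms (bk G P) (pf P p y) - 1) ^ 2 := by
      rcases le_total (Fr G P p H y) (2 * B) with k | k
      · rw [min_eq_left k, sub_self]; positivity
      · rw [min_eq_right k]
        have := f1 y
        nlinarith [mul_nonneg hB (sq_nonneg (ms (bk G P) (pf P p y) - 3 / 2))]
    have h5 : 0 ≤ Fr G P p H y - min (Fr G P p H y) (2 * B) := sub_nonneg.2 (min_le_left _ _)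
    nlinarith [mul_le_mul_of_nonneg_left ((le_abs_self _).trans (hK y)) h5,
      mul_le_mul_of_nonneg_right h4 hD]

end

end Vale.Agent.P057TL
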