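import Vale.Agent.P057TL.Edge
import Vale.Agent.P057SA.Eg

/-!
Telescoping over the edges.
-/

set_option linter.all false

open Matrix Finset Function Real
open Vale.Agent.P267.H775 Vale.Agent.P057G Vale.Agent.P057PC Vale.Agent.P057EN
open Vale.Agent.P057TP Vale.Agent.P057GH Vale.Agent.P057SG Vale.Agent.P057S1

namespace Vale.Agent.P057TL

noncomputable section

theorem prod_le_exp {α : Type} (t : Finset α) {g : α → ℝ} {V : ℝ} (hV : 0 ≤ V) {k : ℕ}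
    (hk : t.card ≤ k) (h : ∀ e, 0 ≤ g e ∧ g e ≤ exp V) :
    0 ≤ ∏ e ∈ t, g e ∧ ∏ e ∈ t, g e ≤ exp (k * V) := by
  refine ⟨prod_nonneg fun e _ => (h e).1,
    (prod_le_prod (fun e _ => (h e).1) fun e _ => (h e).2).trans ?_⟩
  rw [prod_const, exp_nat_mul]
  exact pow_le_pow_right₀ (one_le_exp hV) hk

theorem num {ε U X κ : ℝ} (hε : 0 < ε) (hU : 0 ≤ U) (h : 10 / ε ≤ X - 4 * U)
    (hκ : exp (-U) ≤ κ) :
    exp (-X) ≤ ε / 2 ∧ exp (-X) + 4 * exp (-X) * (exp U * (exp U * exp U)) ≤ ε / 2 * κ := by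
  have h1 : exp (-(X - 4 * U)) ≤ ε / 10 := exp_small (by positivity) (by rwa [one_div_div])
  have h2 : exp (-X) * (exp U * (exp U * exp U)) = exp (-(X - 4 * U)) * exp (-U) := by
    simp only [← exp_add]; congr 1; ring
  have h3 : exp (-X) ≤ exp (-(X - 4 * U)) * exp (-U) := by
    rw [← exp_add]; exact exp_le_exp.2 (by linarith)
  have h4 := mul_le_mul h1 hκ (exp_pos _).le (by positivity)
  refine ⟨(exp_le_exp.2 (by linarith)).trans (h1.trans (by linarith)), ?_⟩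
  rw [mul_assoc, h2]
  linarith

theorem nums {s n p r : ℕ} {q E : ℝ} (hn : n + 1 ≤ s) (hp : 1 ≤ p) (hq : (p : ℝ) ≤ q)
    (h0 : 0 ≤ E) (hE : s + 17 + E ≤ q) :
    ∃ U V : ℝ, q ≤ V ∧ 3 ≤ V ∧ s * (17 * q ^ 2) ≤ V ∧ ((p * p : ℕ) : ℝ) * ((p ^ n : ℕ) * V) ≤ U ∧
      1 ≤ U ∧ E ≤ q ^ (s + 17 + r) - 4 * U ∧ U + 1 ≤ q ^ (s + 17 + r) ∧
      (((n + 1) * p + 2 * p : ℕ) : ℝ) ≤ q ^ (s + 17 + r) ∧ 8 * (p : ℝ) + 4 ≤ q ^ (s + 17 + r) := by
  have c3 : (0 : ℝ) ≤ s := s.cast_nonneg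
  have c4 : (n : ℝ) + 1 ≤ s := by exact_mod_cast hn
  have c5 : (1 : ℝ) ≤ p := by exact_mod_cast hp
  have q1 : 1 ≤ q := by linarith
  have x1 : q ^ (s + 5) * q ≤ q ^ (s + 17 + r) := by
    rw [← pow_succ]; exact pow_le_pow_right₀ q1 (by omega)
  have x2 : q ^ 2 ≤ q ^ (s + 5) := pow_le_pow_right₀ q1 (by omega)
  have x3 : q ≤ q ^ 4 := le_self_pow₀ q1 (by norm_num)
  have x4 : ((p * p : ℕ) : ℝ) * ((p ^ n : ℕ) * q ^ 4) ≤ q ^ (s + 5) := by
    rw [← mul_assoc, ← Nat.cast_mul, show p * p * p ^ n = p ^ (n + 2) by ring, Nat.cast_pow,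
      show s + 5 = s + 1 + 4 from rfl, pow_add q (s + 1)]
    exact mul_le_mul_of_nonneg_right ((pow_le_pow_left₀ (by linarith) hq _).trans
      (pow_le_pow_right₀ q1 (by omega))) (by positivity)
  have x5 : s * (17 * q ^ 2) ≤ q ^ 4 := by
    rw [← mul_assoc, show 4 = 2 + 2 from rfl, pow_add]
    exact mul_le_mul_of_nonneg_right (by nlinarith) (sq_nonneg _)
  refine ⟨_, _, x3, by linarith, x5, x4, ?_⟩
  clear x3 x4 x5
  generalize q ^ (s + 17 + r) = X at *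
  generalize q ^ (s + 5) = U at *
  have u1 : 17 * q ≤ U := by nlinarith
  have u2 : 17 * U ≤ X := by nlinarith
  have u3 : ((n : ℝ) + 3) * p ≤ q ^ 2 := by
    rw [sq]; exact mul_le_mul (by linarith) hq (by linarith) (by linarith)
  refine ⟨by linarith, by linarith, by linarith, ?_, by linarith⟩
  push_cast
  linarith

theorem core {T : Tow} {s n p k : ℕ} {N ε θ X U V q : ℝ} {Z : Sys T (Wv (n + 1) p) (Fin p)}
    {f : ℤ → ℝ} (hT : T.Ok s N) (hZ : Z.Ok) (hf : Unit01 f) (hε : 0 < ε) (hε' : ε ≤ 1 / 10)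
    (hp : 1 ≤ p) (hL : T.tw.LF (n + 1) k (exp X) (exp (-X))) (hk : (n + 1) * p + 2 * p ≤ k)
    (hΛ : 8 * (p : ℝ) + 4 ≤ X) (hF : ∀ z c t, Z.F Prod.fst (n + 2) f z c t ≤ exp V)
    (t0 : exp (-q) ≤ θ) (t4 : θ ≤ 4) (x3 : q ≤ V) (v3 : 3 ≤ V)
    (x4 : ((p * p : ℕ) : ℝ) * ((p ^ n : ℕ) * V) ≤ U) (u1 : 1 ≤ U) (u2 : 10 / ε ≤ X - 4 * U)
    (u3 : U + 1 ≤ X)
    (hG : θ ^ p ^ (n + 1 + 1) ≤ ∑' z, Z.w Prod.fst (n + 2) z * Z.PF Prod.fst (n + 2) f z) :
    ∃ (R : Type) (_ : Fintype R) (_ : DecidableEq R) (Z : Sys T (Option (Uv n p R)) Unit),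
      Fintype.card R ≤ p ∧ Z.Ok ∧
      ES Z f ((1 - ε) * θ ^ (cells (Prod.fst : Wv n p → Fin n)).card) X := by
  have θ0 : 0 ≤ θ := (exp_pos _).le.trans t0
  have v0 : 0 ≤ V := by linarith
  have x6 : ((p ^ n : ℕ) : ℝ) * V ≤ (p * p : ℕ) * ((p ^ n : ℕ) * V) :=
    le_mul_of_one_le_left (by positivity) (by exact_mod_cast Nat.mul_pos hp hp)
  have ce : ∀ t : Finset (Fin p × Fin p), t.card ≤ p * p := fun t => by simpa using card_le_univ t
  have hB : ∀ (t : Finset (Fin p × Fin p)) z, 0 ≤ ∏ e ∈ t, Ge Z f (n + 2) e z ∧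
      ∏ e ∈ t, Ge Z f (n + 2) e z ≤ exp U := fun t z => by
    have := prod_le_exp t (g := fun e => Ge Z f (n + 2) e z) (by positivity) (ce t) fun e =>
      prod_le_exp _ v0 P057SA.card_wv.le fun c => ⟨F_nonneg Z hf _ _ _, hF _ _ _⟩
    exact ⟨this.1, this.2.trans (exp_le_exp.2 x4)⟩
  have hΛ' : 8 * (p : ℝ) + 4 ≤ exp X := by linarith [add_one_le_exp X]
  have sm : ∀ t : Finset (Fin p × Fin p),
      Summable fun z => Z.w Prod.fst (n + 2) z * ∏ e ∈ t, Ge Z f (n + 2) e z := fun t =>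
    summable_mul_real (summable_w hT hZ) (w_nonneg Z) (C := exp U) fun z => by
      rw [abs_of_nonneg (hB t z).1]; exact (hB t z).2
  have n1 := fun κ => num (κ := κ) hε (by linarith : 0 ≤ U) u2
  obtain ⟨t, -, ⟨x, y⟩, -, he, h⟩ := tel_real univ ⟨(⟨0, hp⟩, ⟨0, hp⟩), mem_univ _⟩
    (fun t => ∑' z, Z.w Prod.fst (n + 2) z * ∏ e ∈ t, Ge Z f (n + 2) e z)
    (fun t => tsum_nonneg fun z => mul_nonneg (w_nonneg Z z) (hB t z).1)
    (l := θ ^ p ^ n) (r := 1 - ε) (δ := ε / 2)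
    (by positivity) (by linarith) (by linarith) (by linarith)
    (by
      have p0 : (0 : ℝ) ≤ p := p.cast_nonneg
      have := ms_all (cl := Prod.fst) (m := n + 2) hT hZ le_rfl hL (by simp; omega)
        (by simp; linarith)
      simp only [prod_empty, mul_one]
      refine le_trans ?_ (add_le_add le_rfl (n1 _ le_rfl).1)
      exact sub_le_iff_le_add'.1 (abs_le.1 this).2)
    (by
      simp only [PF_eq] at hG
      rwa [← pow_mul, card_univ, Fintype.card_prod, Fintype.card_fin,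
        show p ^ n * (p * p) = p ^ (n + 1 + 1) by ring])
  have l1 : θ ^ p ^ n ≤ exp U := by
    refine (pow_le_pow_left₀ θ0 (t4.trans (?_ : _ ≤ exp V)) _).trans ?_
    · linarith [add_one_le_exp V]
    · rw [← exp_nat_mul]; exact exp_le_exp.2 (x6.trans x4)
  have l2 : exp (-U) ≤ (θ ^ p ^ n) ^ (t.card + 1) := by
    rw [← card_insert_of_notMem he]
    refine le_trans ?_ (pow_le_pow_left₀ (by positivity) (pow_le_pow_left₀ (exp_pos _).le t0 _) _)
    rw [← exp_nat_mul, ← exp_nat_mul, mul_neg, mul_neg]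
    refine exp_le_exp.2 (neg_le_neg (le_trans (mul_le_mul_of_nonneg_left
      (mul_le_mul_of_nonneg_left x3 (by positivity)) (by positivity)) (le_trans ?_ x4)))
    exact mul_le_mul_of_nonneg_right (Nat.cast_le.2 (ce _)) (by positivity)
  have l0 : 0 ≤ θ ^ p ^ n := by positivity
  rw [P057SA.card_wv]
  refine ⟨{b // b ≠ x}, inferInstance, inferInstance, pb Z (gx x) fun _ => y,
    by simpa using Fintype.card_subtype_le fun b => b ≠ x, ok_pb hZ _ _,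
    edge hT hZ hL hk hΛ' hB ⟨mul_nonneg (by linarith) l0,
      (mul_le_of_le_one_left l0 (by linarith)).trans l1⟩ ?_ he ((n1 _ l2).2.trans ?_)⟩
  · rw [show X = X - U + U by ring, exp_add]
    exact mul_le_mul_of_nonneg_right (by linarith [add_one_le_exp (X - U)]) (exp_pos _).le
  · refine (le_sub_iff_add_le.2 h).trans (le_of_eq ?_)
    beta_reduce
    rw [← tsum_mul_left, ← (sm _).tsum_sub ((sm t).mul_left _)]
    refine tsum_congr fun z => ?_
    rw [prod_insert he]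
    ring

theorem telp (s : ℕ) : TELP s := by
  intro ε hε hε'
  refine ⟨s + 17 + ⌈10 / ε⌉₊, by omega,
    fun N P T n p f θ hl hT hx hn hf h0 h4 hp hpP ⟨Z1, hZ1, hG⟩ hL => ?_⟩
  have ha := antitone_nat_of_succ_le hl.anti
  have c1 := Nat.le_ceil (10 / ε)
  have c2 : 0 < 10 / ε := by positivity
  have c6 := hl.big (n + 2)
  push_cast at c6
  obtain ⟨U, V, a1, a2, a3, a4, a5, a6, a7, a8, a9⟩ :=
    nums (r := ⌈10 / ε⌉₊) hn hp hpP c2.le (by linarith)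
  exact core hT (ok_blow hZ1 p) hf hε hε' hp hL (Nat.le_floor a8) a9
    (fun z c t => (P057SA.F_le hT hl.one (ok_blow hZ1 p) hf
      ((show (1 : ℝ) ≤ p by exact_mod_cast hp).trans hpP)
      (fun e he => ⟨(hx e).1.trans (ha he), (hx e).2.trans (ha he)⟩) z c t).trans (exp_le_exp.2 a3))
    ((exp_le_exp.2 (neg_le_neg (ha (by omega)))).trans h0) h4 a1 a2 a4 a5 a6 a7 hG

end

end Vale.Agent.P057TL
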