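import Vale.Agent.P057TL.Pas
import Vale.Agent.P057S1.Plan

/-!
The edges between the last class of the grid and the special vertices.
-/

set_option linter.all false

open Matrix Finset Function
open Vale.Agent.P267.H775 Vale.Agent.P057G Vale.Agent.P057PC Vale.Agent.P057EN
open Vale.Agent.P057TP Vale.Agent.P057GH Vale.Agent.P057SG Vale.Agent.P057S1

namespace Vale.Agent.P057TL

noncomputable section

variable {n p : ℕ}

/-- the old vertices -/
def up1 (v : Wv n p) : Wv (n + 1) p := (v.1.castSucc, v.2)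

/-- a cell with a vertex of the last class -/
def ce (x : Fin p) (c : Finset (Wv n p)) : Finset (Wv (n + 1) p) :=
  insert (Fin.last n, x) (c.image up1)

theorem up1_inj : Injective (up1 : Wv n p → _) := fun _ _ e =>
  Prod.ext (Fin.castSucc_injective _ (congrArg Prod.fst e)) (congrArg Prod.snd e :)

theorem up1_ne (v : Wv n p) (x : Fin p) : up1 v ≠ (Fin.last n, x) := fun e =>
  Fin.castSucc_ne_last _ (congrArg Prod.fst e)

theorem last_mem {x x' : Fin p} {c : Finset (Wv n p)} : (Fin.last n, x') ∈ ce x c ↔ x' = x := by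
  simp [ce, up1_ne]

theorem up_mem {x : Fin p} {c : Finset (Wv n p)} {v : Wv n p} : up1 v ∈ ce x c ↔ v ∈ c := by
  simp [ce, up1_ne, up1_inj.eq_iff]

theorem vx_cases (w : Wv (n + 1) p) : (∃ x, w = (Fin.last n, x)) ∨ ∃ v, w = up1 v := by
  obtain ⟨i, j⟩ := w
  induction i using Fin.lastCases with
  | last => exact Or.inl ⟨j, rfl⟩
  | cast i => exact Or.inr ⟨(i, j), rfl⟩

theorem prod_cells (φ : Finset (Wv (n + 1) p) → ℝ) :
    ∏ c ∈ cells (Prod.fst : Wv (n + 1) p → _), φ c =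
      ∏ x, ∏ c ∈ cells (Prod.fst : Wv n p → _), φ (ce x c) := by
  rw [← prod_product']
  refine (prod_bij (fun q _ => ce q.1 q.2) (fun q hq => ?_) (fun q _ q' _ e => ?_)
    (fun c hc => ?_) fun _ _ => rfl).symm
  · obtain ⟨h1, h2⟩ := mem_cells.1 (mem_product.1 hq).2
    refine mem_cells.2 ⟨fun u hu v hv e => ?_, fun i => ?_⟩
    · rcases vx_cases u with ⟨x, rfl⟩ | ⟨u, rfl⟩ <;> rcases vx_cases v with ⟨y, rfl⟩ | ⟨v, rfl⟩
      · rw [last_mem.1 hu, last_mem.1 hv]
      · exact absurd e.symm (Fin.castSucc_ne_last _)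
      · exact absurd e (Fin.castSucc_ne_last _)
      · rw [h1 (up_mem.1 hu) (up_mem.1 hv) (Fin.castSucc_injective _ e)]
    · induction i using Fin.lastCases with
      | last => exact ⟨_, last_mem.2 rfl, rfl⟩
      | cast i =>
        obtain ⟨v, h3, rfl⟩ := h2 i
        exact ⟨_, up_mem.2 h3, rfl⟩
  · refine Prod.ext (last_mem.1 (e ▸ last_mem.2 rfl)) (Finset.ext fun v => ?_)
    rw [← up_mem (x := q.1), e, up_mem]
  · obtain ⟨h1, h2⟩ := mem_cells.1 hc
    obtain ⟨⟨i, x⟩, h3, rfl⟩ := h2 (Fin.last n)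
    refine ⟨(x, univ.filter fun v => up1 v ∈ c), mem_product.2 ⟨mem_univ _, mem_cells.2
      ⟨fun u hu v hv e => up1_inj (h1 (mem_filter.1 hu).2 (mem_filter.1 hv).2
        (congrArg Fin.castSucc e)), fun i => ?_⟩⟩, Finset.ext fun w => ?_⟩
    · obtain ⟨⟨j, y⟩, h4, rfl⟩ := h2 i.castSucc
      exact ⟨(i, y), mem_filter.2 ⟨mem_univ _, h4⟩, rfl⟩
    · rcases vx_cases w with ⟨y, rfl⟩ | ⟨v, rfl⟩
      · rw [last_mem]
        exact ⟨fun e => e ▸ h3, fun k => congrArg Prod.snd (h1 k h3 rfl)⟩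
      · simp [up_mem]

/-- the vertices seen from the vertex `x` of the last class -/
def gx (x : Fin p) (v : Option (Uv n p {b // b ≠ x})) : Wv (n + 1) p :=
  v.elim (Fin.last n, x) (Sum.elim up1 fun b => (Fin.last n, b.1))

theorem gx_cl (x : Fin p) (w w' : Option (Uv n p {b // b ≠ x})) :
    (gx x w).1 = (gx x w').1 ↔ c0 w = c0 w' := by
  rcases w with _ | v | b <;> rcases w' with _ | v' | b' <;>
    simp [gx, c0, cU, up1, Fin.castSucc_ne_last, (Fin.castSucc_ne_last _).symm]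

theorem gx_bij (x : Fin p) : Bijective (gx x : Option (Uv n p _) → _) := by
  refine ⟨fun w w' e => ?_, fun w => ?_⟩
  · rcases w with _ | v | b <;> rcases w' with _ | v' | b'
    · rfl
    · exact absurd e.symm (up1_ne _ _)
    · exact absurd (congrArg Prod.snd e).symm b'.2
    · exact absurd e (up1_ne _ _)
    · rw [up1_inj e]
    · exact absurd e (up1_ne _ _)
    · exact absurd (congrArg Prod.snd e) b.2
    · exact absurd e.symm (up1_ne _ _)
    · rw [Subtype.ext (congrArg Prod.snd e : b.1 = b'.1)]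
  · rcases vx_cases w with ⟨y, rfl⟩ | ⟨v, rfl⟩
    · by_cases h : y = x
      exacts [⟨none, h ▸ rfl⟩, ⟨some (Sum.inr ⟨y, h⟩), rfl⟩]
    · exact ⟨some (Sum.inl v), rfl⟩

theorem gx_ce (x : Fin p) (c : Finset (Wv n p)) :
    (insert none ((c.image Sum.inl).image some)).image (gx x) = ce x c := by
  rw [image_insert, image_image, image_image]
  rfl

variable {T : Tow} {s m d k : ℕ} {N Λ η : ℝ} (Z : Sys T (Wv (n + 1) p) (Fin p)) (f : ℤ → ℝ)

/-- the function on an edge -/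
def Ge (m : ℕ) (e : Fin p × Fin p) (z : Lb T (Prod.fst : Wv (n + 1) p → _) (Fin p) m → ℤ) : ℝ :=
  ∏ c ∈ cells (Prod.fst : Wv n p → _), Z.F Prod.fst m f z (ce e.1 c) e.2

theorem PF_eq (z : Lb T (Prod.fst : Wv (n + 1) p → _) (Fin p) m → ℤ) :
    Z.PF Prod.fst m f z = ∏ e, Ge Z f m e z := by
  rw [Sys.PF, prod_cells, Fintype.prod_prod_type]
  exact prod_congr rfl fun x _ => prod_comm

theorem Ge_congr (e : Fin p × Fin p) {z z' : Lb T (Prod.fst : Wv (n + 1) p → _) (Fin p) m → ℤ}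
    (h : ∀ l, (∀ x, (Fin.last n, x) ∈ l.fc → x = e.1) → (l.bs = none ∨ l.bs = some e.2) →
      z l = z' l) : Ge Z f m e z = Ge Z f m e z' :=
  prod_congr rfl fun _ _ => F_congr Z f fun l h1 h2 => h l (fun _ k => last_mem.1 (h1 k)) h2

variable {Z f}

/-- the state on the edge that carries the excess -/
theorem edge (hT : T.Ok s N) (hZ : Z.Ok) (hL : T.tw.LF (n + 1) k Λ η)
    (hn : (n + 1) * p + 2 * p ≤ k) (hΛ : 8 * p + 4 ≤ Λ) {B X l : ℝ}
    (hB : ∀ (t : Finset (Fin p × Fin p)) z, 0 ≤ ∏ e ∈ t, Ge Z f (n + 2) e z ∧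
      ∏ e ∈ t, Ge Z f (n + 2) e z ≤ B) (hl : 0 ≤ l ∧ l ≤ B) (hX : 2 * B ≤ Real.exp X)
    {t : Finset (Fin p × Fin p)} {x y : Fin p} (he : (x, y) ∉ t)
    (h : Real.exp (-X) + 4 * η * (B * (B * B)) ≤ ∑' z, Z.w Prod.fst (n + 2) z *
      ((∏ e ∈ t, Ge Z f (n + 2) e z) * (Ge Z f (n + 2) (x, y) z - l))) :
    ES (pb Z (gx x) fun _ => y) f l X := by
  classical
  have hB0 : 0 ≤ B := hl.1.trans hl.2
  have hi := lift_inj (T := T) (m := n + 2) (gx_cl (n := n) x) (gx_bij x).1 (inj_un y)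
  let ex : (Lb T (c0 : Option (Uv n p {b // b ≠ x}) → _) Unit (n + 2) → ℤ) → _ :=
    fun z => extend (lift (gx_cl (n := n) x) fun _ => y) z 0
  have hex : ∀ z e, e.2 = y → Ge Z f (n + 2) e (ex (z ∘ lift (gx_cl x) fun _ => y)) =
      Ge Z f (n + 2) e z := fun z e k => Ge_congr Z f e fun i _ h2 => by
    obtain ⟨j, rfl⟩ := range_lift (gx_cl x) (gx_bij x) (k ▸ h2)
    exact hi.extend_apply _ _ j
  have hF : ∀ z, ∏ c ∈ cells (Prod.fst : Wv n p → Fin n), (pb Z (gx x) fun _ => y).F c0 (n + 2) f z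
      (insert none ((c.image Sum.inl).image some)) () = Ge Z f (n + 2) (x, y) (ex z) := fun z =>
    prod_congr rfl fun c _ => by
      rw [← gx_ce, ← F_lift (gx_cl x) (gx_bij x).1 (inj_un y), extend_comp hi]
  obtain ⟨a, a1, a2, a3⟩ := pas (m := n + 2) (gx_cl x) hT hZ le_rfl hL (by simpa using hn) (by simpa using hΛ)
    (gx_bij x) y (H := fun z => ∏ e ∈ t.filter (·.2 ≠ y), Ge Z f (n + 2) e z) (hB _)
    (fun z z' k => prod_congr rfl fun e h1 => Ge_congr Z f e fun i _ h2 => k i (by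
      rcases h2 with h2 | h2 <;> rw [h2]
      exacts [by simp, fun h3 => (mem_filter.1 h1).2 (Option.some.inj h3)]))
    (K := fun z => (∏ e ∈ t.filter (·.2 = y), Ge Z f (n + 2) e (ex z)) *
      (Ge Z f (n + 2) (x, y) (ex z) - l)) (D := B * B) fun z => by
        rw [abs_mul, abs_of_nonneg (hB _ _).1]
        refine mul_le_mul (hB _ _).2 ?_ (abs_nonneg _) hB0
        have := hB {(x, y)} (ex z)
        rw [prod_singleton] at this
        rw [abs_le]
        constructor <;> linarith [hl.1, hl.2, this.1, this.2]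
  refine ⟨a, fun z => ∏ e ∈ t.filter (·.2 = y), Ge Z f (n + 2) e (ex z), a1,
    fun z z' k => prod_congr rfl fun e h1 => Ge_congr Z f e fun i h2 h3 => ?_,
    fun z => ⟨(a2 z).1, (a2 z).2.trans hX⟩, fun z => ⟨(hB _ _).1, (hB _ _).2.trans (by linarith)⟩,
    ?_⟩
  · obtain ⟨h4, h5⟩ := mem_filter.1 h1
    obtain ⟨j, rfl⟩ := range_lift (gx_cl x) (gx_bij x) (h5 ▸ h3)
    simp only [ex, hi.extend_apply]
    refine k j fun h6 => he ?_
    rwa [h2 x (mem_image_of_mem (gx x) h6), ← h5]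
  · simp only [hF, mul_assoc]
    refine le_trans (le_sub_iff_add_le.2 (h.trans (le_of_eq (tsum_congr fun z => ?_)))) a3
    beta_reduce
    rw [hex z (x, y) rfl, prod_congr rfl fun e h1 => hex z e (mem_filter.1 h1).2,
      ← prod_filter_mul_prod_filter_not t (·.2 = y)]
    ring

end

end Vale.Agent.P057TL
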