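import Vale.Agent.P057TL.Trunc
import Vale.Agent.P057EN.Dbl
import Vale.Agent.P057GH.Grid

/-!
The labels over the passive special vertices are summed.
-/

set_option linter.all false

open Matrix Finset Function
open Vale.Agent.P267.H775 Vale.Agent.P057G Vale.Agent.P057PC Vale.Agent.P057EN
open Vale.Agent.P057TP Vale.Agent.P057GH

namespace Vale.Agent.P057TL

noncomputable section

variable {T : Tow} {C C' W W' S : Type} {s m d n : ℕ} {N Λ η : ℝ} [Fintype W] [DecidableEq W]
  [Fintype S] [DecidableEq S] {cl : W → C} {Z : Sys T W S}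

/-- labels over a special vertex other than `y` -/
def Ps (y : S) (l : Lb T cl S m) : Prop := l.bs ≠ none ∧ l.bs ≠ some y

instance (y : S) : DecidablePred (Ps y : Lb T cl S m → Prop) := Classical.decPred _

theorem ort_Ps (y : S) : Ort (Gam T cl S m) (Ps y) :=
  ort_Gam fun _ _ _ h k => by unfold Ps at k ⊢; rwa [← h]

theorem pr_sec (hc : ∀ w w', cl (id w) = cl (id w') ↔ cl w = cl w') {k : S → S ⊕ S}
    (hk : ∀ t, Sum.elim id id (k t) = t) (x : Lb T cl (S ⊕ S) m → ℝ) (l : Lb T cl S m) :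
    (pb Z id (Sum.elim id id)).pr cl m x (lift hc k l) = Z.pr cl m (x ∘ lift hc k) l := by
  rw [← pr_lift _ injective_id (LeftInverse.injective hk)]
  refine pr_ext (fun B _ => ?_) _
  rw [at_pb _ _ _ injective_id.injOn, at_pb _ _ _ injective_id.injOn, Option.map_map,
    show Sum.elim id id ∘ k = id from funext hk]
  simp

/-- the system with a second copy of the passive special vertices has mass one -/
theorem ms_dbl (hT : T.Ok s N) (hZ : Z.Ok) (hd : m ≤ d + 1) (hL : T.tw.LF d n Λ η)
    (hn : Fintype.card W + 2 * Fintype.card S ≤ n) (hΛ : 8 * Fintype.card S + 4 ≤ Λ) (y : S) :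
    |ms (fromBlocks (Gam T cl S m) 0 0 (bk (Gam T cl S m) (Ps y)))
      (pc (Ps y) (fun z => Z.pr cl m (toR z)) fun z => Z.pr cl m (toR z)) - 1| ≤ η := by
  let k2 : S → S ⊕ S := fun t => if t = y then Sum.inl t else Sum.inr t
  have g1 : ∀ t : S, Sum.elim id id (Sum.inl t : S ⊕ S) = t := fun _ => rfl
  have g2 : ∀ t, Sum.elim id id (k2 t) = t := fun t => by
    simp only [k2]; split_ifs <;> rfl
  have i2 : k2.Injective := LeftInverse.injective g2
  have hc : ∀ w w', cl (id w) = cl (id w') ↔ cl w = cl w' := fun _ _ => Iff.rfl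
  have j1 := lift_inj (T := T) (m := m) hc injective_id (Sum.inl_injective (α := S) (β := S))
  have j2 := lift_inj (T := T) (m := m) hc injective_id i2
  have hG := pd_Gam hT.pd cl (S ⊕ S) m
  have hG0 := pd_Gam hT.pd cl S m
  have c0 : (0 : ℝ) ≤ Fintype.card S := Nat.cast_nonneg _
  refine (cub_emb hT (ok_pb hZ id (Sum.elim id id))
    (i := Sum.elim (fun l => lift hc Sum.inl l) fun l : {l // Ps y l} => lift hc k2 l.1) ?_ ?_ ?_
    hL (by rw [Fintype.card_sum]; omega) (by linarith) fun v => ?_).self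
    (posDef_blocks hG0 (posDef_bk hG0 _)) fun _ => le_rfl
  · have key : ∀ (l : Lb T cl S m) (l' : {l : Lb T cl S m // Ps y l}),
        lift hc Sum.inl l ≠ lift hc k2 l'.1 := fun l l' e => by
      have h1 : l.bs.map Sum.inl = l'.1.bs.map k2 := congrArg Lb.bs e
      obtain ⟨h2, h3⟩ := l'.2
      obtain ⟨t, ht⟩ := Option.ne_none_iff_exists'.1 h2
      rw [ht] at h1 h3
      rw [Option.map_some, show k2 t = Sum.inr t from if_neg fun e => h3 (by rw [e])] at h1
      cases h : l.bs <;> simp [h] at h1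
    rintro (l | l) (l' | l') e
    · exact congrArg _ (j1 e)
    · exact absurd e (key _ _)
    · exact absurd e.symm (key _ _)
    · exact congrArg _ (Subtype.ext (j2 e))
  · rintro (l | l)
    exacts [Nat.le_of_lt_succ (l.2.1.trans_le hd), Nat.le_of_lt_succ (l.1.2.1.trans_le hd)]
  · rintro z (l | l)
    · exact (pr_sec hc g1 (toR z) l).symm
    · refine Eq.trans ?_ (pr_sec hc g2 (toR z) l.1).symm
      refine congrArg (fun x => Z.pr cl m x l.1) (funext fun i => ?_)
      rw [toR_apply]
      unfold zc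
      split_ifs with h
      · rfl
      · refine congrArg (fun k => (z k : ℝ)) (lb_ext rfl rfl ?_)
        change i.bs.map Sum.inl = i.bs.map k2
        cases e : i.bs with
        | none => rfl
        | some t =>
          have : t = y := by_contra fun k => h ⟨by simp [e], by simp [e, k]⟩
          simp [k2, this]
  · have a1 := qq_emb hG (H := Gam T cl S m) j1
      (fun _ _ => (Gam_lift hc injective_id Sum.inl_injective _ _).symm) (ort_Gam ?_) v
    have a2 := qq_emb hG (H := bk (Gam T cl S m) (Ps y))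
      (i := fun l => lift hc k2 l.1) (fun _ _ e => Subtype.ext (j2 e))
      (fun _ _ => (Gam_lift hc injective_id i2 _ _).symm) (ort_Gam ?_) v
    · rw [qq_blocks, Fintype.card_sum, Nat.cast_add]
      have h0 := qq_nonneg hG.posSemidef v
      refine (mul_le_mul_of_nonneg_left (add_le_add a1 a2) (by positivity)).trans ?_
      nlinarith
    · rintro l l' h1 h2 ⟨k, rfl⟩
      obtain ⟨j, rfl⟩ := mem_lift hc (k := k2) injective_id (l := l') h1.ge (Or.inr h2.symm)
      have h4 : k.1.bs = j.bs := Option.map_injective i2 h2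
      exact ⟨⟨j, by unfold Ps; rw [← h4]; exact k.2⟩, rfl⟩
    · rintro l l' h1 h2 ⟨k, rfl⟩
      exact mem_lift hc (k := Sum.inl) injective_id (l := l') h1.ge (Or.inr h2.symm)

theorem ms_all (hT : T.Ok s N) (hZ : Z.Ok) (hd : m ≤ d + 1) (hL : T.tw.LF d n Λ η)
    (hn : Fintype.card W + Fintype.card S ≤ n) (hΛ : 2 * Fintype.card S + 2 ≤ Λ) :
    |ms (Gam T cl S m) (fun z => Z.pr cl m (toR z)) - 1| ≤ η := by
  have c0 : (0 : ℝ) ≤ Fintype.card S := Nat.cast_nonneg _
  refine (cub_all hT hZ hd hL hn (by linarith)).self (pd_Gam hT.pd cl S m) fun v => ?_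
  rw [qq_smul_mat]
  exact le_mul_of_one_le_left (qq_nonneg (pd_Gam hT.pd cl S m).posSemidef v)
    ((one_le_div (by positivity)).2 hΛ)

variable [Fintype W'] [DecidableEq W'] {cl' : W' → C'} {g : W' → W}
  (hc : ∀ w w', cl (g w) = cl (g w') ↔ cl' w = cl' w')

theorem inj_un (y : S) : Injective fun _ : Unit => y := fun _ _ _ => rfl

theorem range_lift (hg : g.Bijective) {y : S} {l : Lb T cl S m}
    (h : l.bs = none ∨ l.bs = some y) : l ∈ Set.range (lift hc fun _ : Unit => y) :=
  mem_lift hc hg.1 (B := univ) (o := some ())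
    (by rw [image_univ_of_surjective hg.2]; exact subset_univ _) h

/-- the labels of the system over one special vertex -/
def eqv (hg : g.Bijective) (y : S) : Lb T cl' Unit m ≃ {l : Lb T cl S m // ¬ Ps y l} :=
  Equiv.ofBijective (fun k => ⟨lift hc (fun _ => y) k, fun h => by
      obtain ⟨h1, h2⟩ := h
      rw [lift_bs] at h1 h2
      cases e : k.bs <;> simp [e] at h1 h2⟩)
    ⟨fun _ _ e => lift_inj hc hg.1 (inj_un y) (congrArg Subtype.val e), fun l => by
      obtain ⟨k, e⟩ := range_lift hc hg (y := y) (l := l.1) (by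
        have := l.2
        unfold Ps at this
        tauto)
      exact ⟨k, Subtype.ext e⟩⟩

/-- a function of the labels over the other special vertices is replaced by a bounded function
of the pure labels -/
theorem pas (hT : T.Ok s N) (hZ : Z.Ok) (hd : m ≤ d + 1) (hL : T.tw.LF d n Λ η)
    (hn : Fintype.card W + 2 * Fintype.card S ≤ n) (hΛ : 8 * Fintype.card S + 4 ≤ Λ)
    (hg : g.Bijective) (y : S) {H : (Lb T cl S m → ℤ) → ℝ} {B D : ℝ}
    (hH : ∀ z, 0 ≤ H z ∧ H z ≤ B)
    (dH : ∀ z z', (∀ l, l.bs ≠ some y → z l = z' l) → H z = H z')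
    {K : (Lb T cl' Unit m → ℤ) → ℝ} (hK : ∀ z, |K z| ≤ D) :
    ∃ a : (Lb T cl' Unit m → ℤ) → ℝ, (∀ z z', (∀ k, k.bs = none → z k = z' k) → a z = a z') ∧
      (∀ z, 0 ≤ a z ∧ a z ≤ 2 * B) ∧
      ∑' z, Z.w cl m z * (H z * K (z ∘ lift hc fun _ => y)) - 4 * η * (B * D) ≤
        ∑' z, (pb Z g fun _ => y).w cl' m z * (a z * K z) := by
  have c1 : 1 ≤ Fintype.card S := Fintype.card_pos_iff.2 ⟨y⟩
  have c2 : (1 : ℝ) ≤ Fintype.card S := by exact_mod_cast c1
  have hB : 0 ≤ B := (hH 0).1.trans (hH 0).2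
  let e := eqv (T := T) (m := m) hc hg y
  let q : ({l : Lb T cl S m // ¬ Ps y l} → ℤ) → {l : Lb T cl S m // ¬ Ps y l} → ℝ :=
    fun u l => (pb Z g fun _ => y).pr cl' m (toR (u ∘ e)) (e.symm l)
  have hs : Spl (Ps y) (fun z => Z.pr cl m (toR z)) q := fun z l => by
    obtain ⟨k, rfl⟩ := e.surjective l
    simp only [q, e.symm_apply_apply]
    exact (pr_lift hc hg.1 (inj_un y) Z (toR z) k).symm
  have hG : ∀ i j, Gam T cl' Unit m i j = bk (Gam T cl S m) (fun l => ¬ Ps y l) (e i) (e j) :=
    fun i j => (Gam_lift hc hg.1 (inj_un y) i j).symm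
  have hq : ∀ u i, (pb Z g fun _ => y).pr cl' m (toR (u ∘ e)) i = q u (e i) := fun u i => by
    simp only [q, e.symm_apply_apply]
  have h0 := ms_all (cl := cl') (m := m) hT (ok_pb hZ g fun _ : Unit => y) hd hL
    (by rw [Fintype.card_congr (Equiv.ofBijective g hg), Fintype.card_unit]; omega)
    (by rw [Fintype.card_unit]; push_cast; linarith)
  rw [ms_equiv e hG (p := q) hq] at h0
  have h1 := trunc (tri_pr hT hZ) (pd_Gam hT.pd cl S m) (ort_Ps y) hs h0
    (ms_all hT hZ hd hL (by omega) (by linarith)) (ms_dbl hT hZ hd hL hn hΛ y) hH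
    (K := fun u => K (u ∘ e)) fun _ => hK _
  refine ⟨fun z => min (Fr (Gam T cl S m) (Ps y) (fun z => Z.pr cl m (toR z)) H (z ∘ e.symm))
    (2 * B), fun z z' h => ?_, fun z => ⟨le_min (P057ST.er_nonneg _ _ fun _ => (hH _).1)
      (by linarith), min_le_right _ _⟩, h1.trans (le_of_eq ?_)⟩
  · have key : ∀ x (l : Lb T cl S m), l.bs ≠ some y →
        glue (X := fun _ => ℤ) (Ps y) x (z ∘ e.symm) l =
          glue (X := fun _ => ℤ) (Ps y) x (z' ∘ e.symm) l := fun x l hl => by
      by_cases k : Ps y l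
      · rw [glue_pos _ _ k, glue_pos _ _ k]
      · rw [glue_neg _ _ k, glue_neg _ _ k]
        refine h _ ?_
        have h2 : ((e.symm ⟨l, k⟩).bs.map fun _ => y) = l.bs :=
          congrArg (fun i => i.1.bs) (e.apply_symm_apply ⟨l, k⟩)
        rw [← h2] at hl
        cases h3 : (e.symm ⟨l, k⟩).bs
        · rfl
        · simp [h3] at hl
    beta_reduce
    unfold Fr
    congr 2
    · funext x l
      refine pr_congr hT hZ fun l' _ h2 _ => ?_
      rw [toR_apply, toR_apply, key x l' ?_]
      rcases h2 with h2 | h2 <;> rw [h2]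
      exacts [by simp, l.2.2]
    · exact funext fun x => dH _ _ (key x)
  · exact (er_equiv e hG hq fun u => by simp [comp_assoc]).symm

end

end Vale.Agent.P057TL
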